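import Mathlib

/-!
# P248, planar base case: the elementary inequality
-/

namespace Vale.Agent.Lib.P248

/-- The polynomial inequality behind the case of a large sum. -/
private theorem alg_poly (α β : ℝ) (hα : 0 < α) (hαβ : α ≤ β) (h23 : 2 / 3 < α + β) :
    α * (1 - 2 * α) ≤ β * (1 - 4 * α + 6 * α ^ 2) := by
  have hq : 0 < 1 - 4 * α + 6 * α ^ 2 := by
    nlinarith [sq_nonneg (1 - 2 * α), mul_pos hα hα]
  rcases le_or_gt (1 / 3) α with h | h
  · have e1 : α * (1 - 4 * α + 6 * α ^ 2) ≤ β * (1 - 4 * α + 6 * α ^ 2) :=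
      mul_le_mul_of_nonneg_right hαβ hq.le
    have e2 : 0 ≤ 2 * α ^ 2 * (3 * α - 1) := mul_nonneg (by positivity) (by linarith)
    nlinarith [e1, e2]
  · have e1 : (2 / 3 - α) * (1 - 4 * α + 6 * α ^ 2) ≤ β * (1 - 4 * α + 6 * α ^ 2) :=
      mul_le_mul_of_nonneg_right (by linarith) hq.le
    have e2 : 0 ≤ 2 / 3 * (3 * α - 1) ^ 2 * (1 - α) :=
      mul_nonneg (by positivity) (by linarith)
    nlinarith [e1, e2]

/-- The case of a large sum with the extra term over the larger denominator. -/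
private theorem alg_key (α β : ℝ) (hα : 0 < α) (hαβ : α ≤ β) (h1 : α + β ≤ 1)
    (h23 : 2 / 3 < α + β) :
    6 ≤ 1 / α + 1 / β + (3 * (α + β) - 2) / (β * (1 - α)) := by
  have hβ : 0 < β := lt_of_lt_of_le hα hαβ
  have h1α : 0 < 1 - α := by linarith
  have hM : 0 < β * (1 - α) := mul_pos hβ h1α
  have hp := alg_poly α β hα hαβ h23
  have hP : 0 ≤ β * (β * (1 - 4 * α + 6 * α ^ 2) - α * (1 - 2 * α)) :=
    mul_nonneg hβ.le (sub_nonneg.mpr hp)
  rw [div_add_div _ _ hα.ne' hβ.ne', div_add_div _ _ (mul_ne_zero hα.ne' hβ.ne') hM.ne',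
    le_div_iff₀ (mul_pos (mul_pos hα hβ) hM)]
  nlinarith [hP]

/-- The case of a large sum, in normalised form, when the first variable is the smaller. -/
private theorem alg_case (α β X Y w : ℝ) (hα : 0 < α) (hαβ : α ≤ β) (h1 : α + β ≤ 1)
    (h23 : 2 / 3 < α + β) (hXY : X + Y = 3 * (α + β) - 2)
    (h2 : 1 / α + 1 / β + X / (β * (1 - α)) ≤ w)
    (h3 : 1 / α + 1 / β + Y / (α * (1 - β)) ≤ w)
    (h4 : 1 / α + 1 / β + X / (β * (1 - α)) + Y / (α * (1 - β)) ≤ w) : 6 ≤ w := by
  have hβ : 0 < β := lt_of_lt_of_le hα hαβ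
  have h1α : 0 < 1 - α := by linarith
  have h1β : 0 < 1 - β := by linarith
  have hM : 0 < β * (1 - α) := mul_pos hβ h1α
  have hN : 0 < α * (1 - β) := mul_pos hα h1β
  have hNM : α * (1 - β) ≤ β * (1 - α) := by nlinarith
  have hkey := alg_key α β hα hαβ h1 h23
  have hclaim : 1 / α + 1 / β + (3 * (α + β) - 2) / (β * (1 - α)) ≤ w := by
    rcases lt_or_ge X 0 with hX | hX
    · have hY : 3 * (α + β) - 2 ≤ Y := by linarith
      have e1 : (3 * (α + β) - 2) / (β * (1 - α)) ≤ Y / (β * (1 - α)) :=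
        div_le_div_of_nonneg_right hY hM.le
      have e2 : Y / (β * (1 - α)) ≤ Y / (α * (1 - β)) :=
        div_le_div_of_nonneg_left (by linarith) hN hNM
      linarith
    · rcases lt_or_ge Y 0 with hY | hY
      · have hX' : 3 * (α + β) - 2 ≤ X := by linarith
        have e1 : (3 * (α + β) - 2) / (β * (1 - α)) ≤ X / (β * (1 - α)) :=
          div_le_div_of_nonneg_right hX' hM.le
        linarith
      · have e2 : Y / (β * (1 - α)) ≤ Y / (α * (1 - β)) :=
          div_le_div_of_nonneg_left hY hN hNM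
        have e3 : (3 * (α + β) - 2) / (β * (1 - α)) =
            X / (β * (1 - α)) + Y / (β * (1 - α)) := by
          rw [← add_div, hXY]
        linarith
  linarith

/-- ALG. The largest of the four trapezoid sums is at least six (normalised variables). -/
theorem plane_alg_core (α β s w : ℝ) (hα : 0 < α) (hβ : 0 < β) (hαβ : α + β ≤ 1)
    (h4 : 1 / α + 1 / β ≤ w)
    (h2 : 1 / α + (2 * β - s) / (β * (1 - α)) ≤ w)
    (h3 : 1 / β + (2 * α + s) / (α * (1 - β)) ≤ w)
    (h1 : (2 * β - s) / (β * (1 - α)) + (2 * α + s) / (α * (1 - β)) ≤ w) :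
    6 ≤ w := by
  have h1α : 0 < 1 - α := by linarith
  have h1β : 0 < 1 - β := by linarith
  have hM : 0 < β * (1 - α) := mul_pos hβ h1α
  have hN : 0 < α * (1 - β) := mul_pos hα h1β
  rcases le_or_gt (α + β) (2 / 3) with hA | hB
  · have h6 : 6 * (α * β) ≤ α + β := by
      nlinarith [sq_nonneg (α - β), mul_nonneg (add_pos hα hβ).le (sub_nonneg.mpr hA)]
    have e : 1 / α + 1 / β = (α + β) / (α * β) := by
      rw [div_add_div _ _ hα.ne' hβ.ne']
      ring
    have h6' : 6 ≤ (α + β) / (α * β) := by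
      rw [le_div_iff₀ (mul_pos hα hβ)]
      exact h6
    linarith
  · have eX : (2 * β - s) / (β * (1 - α)) =
        1 / β + (α + 2 * β - 1 - s) / (β * (1 - α)) := by
      rw [div_add_div _ _ hβ.ne' hM.ne', div_eq_div_iff hM.ne' (mul_ne_zero hβ.ne' hM.ne')]
      ring
    have eY : (2 * α + s) / (α * (1 - β)) =
        1 / α + (2 * α + β - 1 + s) / (α * (1 - β)) := by
      rw [div_add_div _ _ hα.ne' hN.ne', div_eq_div_iff hN.ne' (mul_ne_zero hα.ne' hN.ne')]
      ring
    rw [eX] at h2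
    rw [eY] at h3
    rw [eX, eY] at h1
    rcases le_total α β with hab | hab
    · exact alg_case α β (α + 2 * β - 1 - s) (2 * α + β - 1 + s) w hα hab hαβ hB (by ring)
        (by linarith) (by linarith) (by linarith)
    · exact alg_case β α (2 * α + β - 1 + s) (α + 2 * β - 1 - s) w hβ hab (by linarith)
        (by linarith) (by ring) (by linarith) (by linarith) (by linarith)

end Vale.Agent.Lib.P248
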