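import Vale.Agent.Lib.P248.Dual

/-!
# P248, planar base case: the extreme points of a planar half corner
-/

open MeasureTheory Set

namespace Vale.Agent.Lib.P248

/-- PARAM. A planar half corner meets the axis in a segment from `(-A, 0)` to `(B, 0)`, lies
between the abscissas `-A` and `B` and below the height `h`, and contains a point `(z₀, h)` of
maximal height. -/
theorem plane_params {C : Set (Fin 2 → ℝ)} (hC : HalfCorner C) :
    ∃ A B h z₀ : ℝ, 0 < A ∧ 0 < B ∧ 0 < h ∧ -A ≤ z₀ ∧ z₀ ≤ B ∧
      ![-A, 0] ∈ C ∧ ![B, 0] ∈ C ∧ ![z₀, h] ∈ C ∧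
      ∀ x ∈ C, -A ≤ x 0 ∧ x 0 ≤ B ∧ x 1 ≤ h := by
  obtain ⟨R, hR⟩ := hC.bdd
  obtain ⟨r, hr, hbox⟩ := hC.box
  have hcomp : IsCompact C := by
    refine IsCompact.of_isClosed_subset
      (isCompact_univ_pi (fun _ : Fin 2 => isCompact_Icc (a := -R) (b := R))) hC.closed ?_
    intro x hx i _
    exact abs_le.mp (hR x hx i)
  have h10 : (1 : Fin 2) ≠ 0 := by decide
  have hp0 : (![0, r] : Fin 2 → ℝ) ∈ C := by
    apply hbox
    · rw [Fin.forall_fin_two]
      constructor
      · simp [hr.le]
      · simp [abs_of_pos hr]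
    · rw [Fin.forall_fin_two]
      constructor
      · intro h0
        exact absurd rfl h0
      · intro _
        simp [hr.le]
  have hpl : (![-r, 0] : Fin 2 → ℝ) ∈ C := by
    apply hbox
    · rw [Fin.forall_fin_two]
      constructor
      · simp [abs_of_pos hr]
      · simp [hr.le]
    · rw [Fin.forall_fin_two]
      constructor
      · intro h0
        exact absurd rfl h0
      · intro _
        simp
  have hpr : (![r, 0] : Fin 2 → ℝ) ∈ C := by
    apply hbox
    · rw [Fin.forall_fin_two]
      constructor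
      · simp [abs_of_pos hr]
      · simp [hr.le]
    · rw [Fin.forall_fin_two]
      constructor
      · intro h0
        exact absurd rfl h0
      · intro _
        simp
  have hne : C.Nonempty := ⟨_, hp0⟩
  obtain ⟨xm, hxm, hmin⟩ :=
    hcomp.exists_isMinOn hne (continuous_apply (0 : Fin 2)).continuousOn
  obtain ⟨xM, hxM, hmax⟩ :=
    hcomp.exists_isMaxOn hne (continuous_apply (0 : Fin 2)).continuousOn
  obtain ⟨q, hq, hqmax⟩ :=
    hcomp.exists_isMaxOn hne (continuous_apply (1 : Fin 2)).continuousOn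
  rw [isMinOn_iff] at hmin
  rw [isMaxOn_iff] at hmax hqmax
  have hA : xm 0 ≤ -r := by simpa using hmin _ hpl
  have hB : r ≤ xM 0 := by simpa using hmax _ hpr
  have hh : r ≤ q 1 := by simpa using hqmax _ hp0
  have down0 : ∀ x ∈ C, (![x 0, 0] : Fin 2 → ℝ) ∈ C := by
    intro x hx
    refine hC.down x hx _ (by simp) ?_
    rw [Fin.forall_fin_two]
    constructor
    · intro h0
      exact absurd rfl h0
    · intro _
      refine ⟨by simp, ?_⟩
      simpa using hC.nonneg x hx 1 h10
  have hqeq : q = ![q 0, q 1] := by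
    funext i
    fin_cases i <;> rfl
  refine ⟨-(xm 0), xM 0, q 1, q 0, by linarith, by linarith, by linarith, ?_, hmax q hq, ?_,
    down0 xM hxM, ?_, ?_⟩
  · rw [neg_neg]
    exact hmin q hq
  · rw [neg_neg]
    exact down0 xm hxm
  · rw [← hqeq]
    exact hq
  · intro x hx
    refine ⟨?_, hmax x hx, hqmax x hx⟩
    rw [neg_neg]
    exact hmin x hx

end Vale.Agent.Lib.P248
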