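import Vale.Agent.Lib.P248.Dual

/-!
# P248, planar base case: five explicit points of the dual of a planar half corner
-/

open MeasureTheory Set

namespace Vale.Agent.Lib.P248

/-- Membership of a point of the plane in the dual half corner. -/
private theorem polar5_mem {C : Set (Fin 2 → ℝ)} {u v : ℝ} (hv : 0 ≤ v)
    (h : ∀ x ∈ C, x 0 * u + x 1 * v ≤ 1) : ![u, v] ∈ dualCorner C := by
  refine ⟨fun i hi => ?_, fun x hx => ?_⟩
  · have hi1 : i = 1 := by
      apply Fin.ext
      have h1 := i.isLt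
      have h2 : i.val ≠ 0 := fun h0 => hi (Fin.ext h0)
      show i.val = 1
      omega
    rw [hi1]
    exact hv
  · rw [Fin.sum_univ_two]
    exact h x hx

/-- POLAR5. Five points of the dual half corner, from three lower bounds `V` for the area. -/
theorem plane_polar_points {C : Set (Fin 2 → ℝ)} {A B h z₀ V : ℝ}
    (hA : 0 < A) (hB : 0 < B) (hh : 0 < h) (hz1 : -A ≤ z₀) (hz2 : z₀ ≤ B)
    (hbd : ∀ x ∈ C, -A ≤ x 0 ∧ x 0 ≤ B ∧ x 1 ≤ h)
    (hV1 : h * (A + B) / 2 ≤ V)
    (hV2 : ∀ x ∈ C, z₀ ≤ x 0 → (h * A + h * x 0 + x 1 * (B - z₀)) / 2 ≤ V)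
    (hV3 : ∀ x ∈ C, x 0 ≤ z₀ → (h * B - h * x 0 + x 1 * (A + z₀)) / 2 ≤ V) :
    ![-(1 / A), 0] ∈ dualCorner C ∧ ![1 / B, 0] ∈ dualCorner C ∧
      ![0, 1 / h] ∈ dualCorner C ∧
      ![h / (2 * V - h * A), (B - z₀) / (2 * V - h * A)] ∈ dualCorner C ∧
      ![-(h / (2 * V - h * B)), (A + z₀) / (2 * V - h * B)] ∈ dualCorner C := by
  have hhA : 0 < h * A := mul_pos hh hA
  have hhB : 0 < h * B := mul_pos hh hB
  have hm : 0 < 2 * V - h * A := by linarith
  have hm1 : 0 < 2 * V - h * B := by linarith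
  refine ⟨?_, ?_, ?_, ?_, ?_⟩
  · apply polar5_mem le_rfl
    intro x hx
    obtain ⟨h1, h2, h3⟩ := hbd x hx
    have e : x 0 * -(1 / A) + x 1 * 0 = (-x 0) / A := by ring
    rw [e, div_le_one hA]
    linarith
  · apply polar5_mem le_rfl
    intro x hx
    obtain ⟨h1, h2, h3⟩ := hbd x hx
    have e : x 0 * (1 / B) + x 1 * 0 = x 0 / B := by ring
    rw [e, div_le_one hB]
    exact h2
  · apply polar5_mem (div_nonneg zero_le_one hh.le)
    intro x hx
    obtain ⟨h1, h2, h3⟩ := hbd x hx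
    have e : x 0 * 0 + x 1 * (1 / h) = x 1 / h := by ring
    rw [e, div_le_one hh]
    exact h3
  · apply polar5_mem (div_nonneg (by linarith) hm.le)
    intro x hx
    obtain ⟨h1, h2, h3⟩ := hbd x hx
    have e : x 0 * (h / (2 * V - h * A)) + x 1 * ((B - z₀) / (2 * V - h * A)) =
        (h * x 0 + x 1 * (B - z₀)) / (2 * V - h * A) := by ring
    rw [e, div_le_one hm]
    rcases le_total z₀ (x 0) with hz | hz
    · have h4 := hV2 x hx hz
      linarith
    · have h4 : h * x 0 ≤ h * z₀ := mul_le_mul_of_nonneg_left hz hh.le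
      have h5 : x 1 * (B - z₀) ≤ h * (B - z₀) :=
        mul_le_mul_of_nonneg_right h3 (by linarith)
      linarith
  · apply polar5_mem (div_nonneg (by linarith) hm1.le)
    intro x hx
    obtain ⟨h1, h2, h3⟩ := hbd x hx
    have e : x 0 * -(h / (2 * V - h * B)) + x 1 * ((A + z₀) / (2 * V - h * B)) =
        (-(h * x 0) + x 1 * (A + z₀)) / (2 * V - h * B) := by ring
    rw [e, div_le_one hm1]
    rcases le_total (x 0) z₀ with hz | hz
    · have h4 := hV3 x hx hz
      linarith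
    · have h4 : h * z₀ ≤ h * x 0 := mul_le_mul_of_nonneg_left hz hh.le
      have h5 : x 1 * (A + z₀) ≤ h * (A + z₀) :=
        mul_le_mul_of_nonneg_right h3 (by linarith)
      linarith

end Vale.Agent.Lib.P248
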