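import Vale.Agent.Lib.P248.Plane.Chain
import Vale.Agent.Lib.P248.Plane.Param
import Vale.Agent.Lib.P248.Plane.Polar5
import Vale.Agent.Lib.P248.Plane.Alg

/-!
# P248, planar base case: `3/2 ≤ |C| |D|` for planar half corners
-/

open MeasureTheory Set

namespace Vale.Agent.Lib.P248

/-- The four normalisation identities between the trapezoid sums and the variables of
`plane_alg_core`. -/
theorem plane_norm_ids (A B h V z₀ : ℝ) (hA : 0 < A) (hB : 0 < B) (hh : 0 < h) (hV : 0 < V)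
    (hm : 0 < 2 * V - h * A) (hm' : 0 < 2 * V - h * B) :
    (1 / (h * A / (2 * V)) + 1 / (h * B / (2 * V)) =
      4 * V * ((0 + 1 / h) * (0 - -(1 / A)) / 2 + (1 / h + 0) * (1 / B - 0) / 2)) ∧
    (1 / (h * A / (2 * V)) +
        (2 * (h * B / (2 * V)) - h * z₀ / (2 * V)) /
          (h * B / (2 * V) * (1 - h * A / (2 * V))) =
      4 * V * ((0 + 1 / h) * (0 - -(1 / A)) / 2 +
        (1 / h + (B - z₀) / (2 * V - h * A)) * (h / (2 * V - h * A) - 0) / 2 +
        ((B - z₀) / (2 * V - h * A) + 0) * (1 / B - h / (2 * V - h * A)) / 2)) ∧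
    (1 / (h * B / (2 * V)) +
        (2 * (h * A / (2 * V)) + h * z₀ / (2 * V)) /
          (h * A / (2 * V) * (1 - h * B / (2 * V))) =
      4 * V * ((0 + (A + z₀) / (2 * V - h * B)) * (-(h / (2 * V - h * B)) - -(1 / A)) / 2 +
        ((A + z₀) / (2 * V - h * B) + 1 / h) * (0 - -(h / (2 * V - h * B))) / 2 +
        (1 / h + 0) * (1 / B - 0) / 2)) ∧
    ((2 * (h * B / (2 * V)) - h * z₀ / (2 * V)) /
          (h * B / (2 * V) * (1 - h * A / (2 * V))) +
        (2 * (h * A / (2 * V)) + h * z₀ / (2 * V)) /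
          (h * A / (2 * V) * (1 - h * B / (2 * V))) =
      4 * V * ((0 + (A + z₀) / (2 * V - h * B)) * (-(h / (2 * V - h * B)) - -(1 / A)) / 2 +
        ((A + z₀) / (2 * V - h * B) + 1 / h) * (0 - -(h / (2 * V - h * B))) / 2 +
        (1 / h + (B - z₀) / (2 * V - h * A)) * (h / (2 * V - h * A) - 0) / 2 +
        ((B - z₀) / (2 * V - h * A) + 0) * (1 / B - h / (2 * V - h * A)) / 2)) := by
  have hAne : A ≠ 0 := hA.ne'
  have hBne : B ≠ 0 := hB.ne'
  have hhne : h ≠ 0 := hh.ne'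
  have hVne : V ≠ 0 := hV.ne'
  have hmne : 2 * V - h * A ≠ 0 := hm.ne'
  have hmne' : 2 * V - h * B ≠ 0 := hm'.ne'
  have e1 : 1 - h * A / (2 * V) = (2 * V - h * A) / (2 * V) := by field_simp
  have e2 : 1 - h * B / (2 * V) = (2 * V - h * B) / (2 * V) := by field_simp
  rw [e1, e2]
  refine ⟨?_, ?_, ?_, ?_⟩
  · field_simp
    ring
  · field_simp
    ring
  · field_simp
    ring
  · field_simp
    ring

/-- **Planar base case.** For every planar half corner, `3/2 ≤ |C| |D|`. -/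
theorem halfCorner_base2 (C : Set (Fin 2 → ℝ)) (hC : HalfCorner C) :
    3 / 2 ≤ vol C * vol (dualCorner C) := by
  obtain ⟨A, B, h, z₀, hA, hB, hh, hz1, hz2, mA, mB, mq, hbd⟩ := plane_params hC
  have hD : HalfCorner (dualCorner C) := halfCorner_dual hC
  have h10 : (1 : Fin 2) ≠ 0 := by decide
  -- three lower bounds for the area of `C`
  have hV1 : h * (A + B) / 2 ≤ vol C := by
    have hc := chain3_le hC (t0 := -A) (t1 := z₀) (t2 := B) (y0 := 0) (y1 := h) (y2 := 0)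
      hz1 hz2 le_rfl hh.le le_rfl mA mq mB
    have e : (0 + h) * (z₀ - -A) / 2 + (h + 0) * (B - z₀) / 2 = h * (A + B) / 2 := by ring
    rw [e] at hc
    exact hc
  have hpt : ∀ x : Fin 2 → ℝ, ![x 0, x 1] = x := by
    intro x
    funext i
    fin_cases i <;> rfl
  have hV2 : ∀ x ∈ C, z₀ ≤ x 0 → (h * A + h * x 0 + x 1 * (B - z₀)) / 2 ≤ vol C := by
    intro x hx hx0
    have hxB := (hbd x hx).2.1
    have hx1 : 0 ≤ x 1 := hC.nonneg x hx 1 h10
    have mx : ![x 0, x 1] ∈ C := by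
      rw [hpt x]
      exact hx
    have hc := chain4_le hC (t0 := -A) (t1 := z₀) (t2 := x 0) (t3 := B)
      (y0 := 0) (y1 := h) (y2 := x 1) (y3 := 0)
      hz1 hx0 hxB le_rfl hh.le hx1 le_rfl mA mq mx mB
    have e : (0 + h) * (z₀ - -A) / 2 + (h + x 1) * (x 0 - z₀) / 2 + (x 1 + 0) * (B - x 0) / 2
        = (h * A + h * x 0 + x 1 * (B - z₀)) / 2 := by ring
    rw [e] at hc
    exact hc
  have hV3 : ∀ x ∈ C, x 0 ≤ z₀ → (h * B - h * x 0 + x 1 * (A + z₀)) / 2 ≤ vol C := by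
    intro x hx hx0
    have hxA := (hbd x hx).1
    have hx1 : 0 ≤ x 1 := hC.nonneg x hx 1 h10
    have mx : ![x 0, x 1] ∈ C := by
      rw [hpt x]
      exact hx
    have hc := chain4_le hC (t0 := -A) (t1 := x 0) (t2 := z₀) (t3 := B)
      (y0 := 0) (y1 := x 1) (y2 := h) (y3 := 0)
      hxA hx0 hz2 le_rfl hx1 hh.le le_rfl mA mx mq mB
    have e : (0 + x 1) * (x 0 - -A) / 2 + (x 1 + h) * (z₀ - x 0) / 2 + (h + 0) * (B - z₀) / 2
        = (h * B - h * x 0 + x 1 * (A + z₀)) / 2 := by ring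
    rw [e] at hc
    exact hc
  obtain ⟨pL, pU, pe, pw, pw'⟩ := plane_polar_points hA hB hh hz1 hz2 hbd hV1 hV2 hV3
  have hAB : 0 < h * (A + B) := mul_pos hh (add_pos hA hB)
  have hhA : 0 < h * A := mul_pos hh hA
  have hhB : 0 < h * B := mul_pos hh hB
  have hVpos : 0 < vol C := by linarith
  have hm : 0 < 2 * vol C - h * A := by nlinarith
  have hm' : 0 < 2 * vol C - h * B := by nlinarith
  -- the nodes are ordered
  have o0 : -(1 / A) ≤ (0:ℝ) := by
    have := one_div_pos.mpr hA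
    linarith
  have o5 : (0:ℝ) ≤ 1 / B := (one_div_pos.mpr hB).le
  have o1 : -(1 / A) ≤ -(h / (2 * vol C - h * B)) := by
    rw [neg_le_neg_iff, div_le_div_iff₀ hm' hA]
    nlinarith
  have o2 : -(h / (2 * vol C - h * B)) ≤ 0 := by
    have := div_pos hh hm'
    linarith
  have o3 : (0:ℝ) ≤ h / (2 * vol C - h * A) := (div_pos hh hm).le
  have o4 : h / (2 * vol C - h * A) ≤ 1 / B := by
    rw [div_le_div_iff₀ hm hB]
    nlinarith
  have yw : 0 ≤ (B - z₀) / (2 * vol C - h * A) := div_nonneg (by linarith) hm.le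
  have yw' : 0 ≤ (A + z₀) / (2 * vol C - h * B) := div_nonneg (by linarith) hm'.le
  have ye : 0 ≤ 1 / h := (one_div_pos.mpr hh).le
  -- four lower bounds for the area of the dual
  have c4 := chain3_le hD (t0 := -(1 / A)) (t1 := 0) (t2 := 1 / B)
    (y0 := 0) (y1 := 1 / h) (y2 := 0) o0 o5 le_rfl ye le_rfl pL pe pU
  have c2 := chain4_le hD (t0 := -(1 / A)) (t1 := 0) (t2 := h / (2 * vol C - h * A))
    (t3 := 1 / B) (y0 := 0) (y1 := 1 / h) (y2 := (B - z₀) / (2 * vol C - h * A)) (y3 := 0)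
    o0 o3 o4 le_rfl ye yw le_rfl pL pe pw pU
  have c3 := chain4_le hD (t0 := -(1 / A)) (t1 := -(h / (2 * vol C - h * B))) (t2 := 0)
    (t3 := 1 / B) (y0 := 0) (y1 := (A + z₀) / (2 * vol C - h * B)) (y2 := 1 / h) (y3 := 0)
    o1 o2 o5 le_rfl yw' ye le_rfl pL pw' pe pU
  have c1 := chain5_le hD (t0 := -(1 / A)) (t1 := -(h / (2 * vol C - h * B))) (t2 := 0)
    (t3 := h / (2 * vol C - h * A)) (t4 := 1 / B)
    (y0 := 0) (y1 := (A + z₀) / (2 * vol C - h * B)) (y2 := 1 / h)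
    (y3 := (B - z₀) / (2 * vol C - h * A)) (y4 := 0)
    o1 o2 o3 o4 le_rfl yw' ye yw le_rfl pL pw' pe pw pU
  -- normalisation
  obtain ⟨i4, i2, i3, i1⟩ := plane_norm_ids A B h (vol C) z₀ hA hB hh hVpos hm hm'
  have h4V : 0 ≤ 4 * vol C := by linarith
  have key := plane_alg_core (h * A / (2 * vol C)) (h * B / (2 * vol C)) (h * z₀ / (2 * vol C))
    (4 * vol C * vol (dualCorner C)) (by positivity) (by positivity)
    (by
      rw [← add_div, div_le_one (by linarith)]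
      linarith)
    (by
      rw [i4]
      exact mul_le_mul_of_nonneg_left c4 h4V)
    (by
      rw [i2]
      exact mul_le_mul_of_nonneg_left c2 h4V)
    (by
      rw [i3]
      exact mul_le_mul_of_nonneg_left c3 h4V)
    (by
      rw [i1]
      exact mul_le_mul_of_nonneg_left c1 h4V)
  linarith

end Vale.Agent.Lib.P248
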