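import Vale.Agent.Lib.P248.Plane.Trap

/-!
# P248, planar base case: the area of a planar half corner is at least the area under any
polygonal chain through points of it (three, four or five nodes, abscissas in increasing order)
-/

open MeasureTheory Set

namespace Vale.Agent.Lib.P248

/-- One more node: if the area under a chain ending at the abscissa `t` is at most the area of
the part of `S` over `(t0, t)`, the same holds after adding the trapezoid up to the next node. -/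
private theorem chain_step {S : Set (Fin 2 → ℝ)} (hS : HalfCorner S) {t0 t t' y y' s : ℝ}
    (h0t : t0 ≤ t) (htt' : t ≤ t') (hs : 0 ≤ s) (hy : 0 ≤ y) (hy' : 0 ≤ y')
    (m : ![t, y] ∈ S) (m' : ![t', y'] ∈ S)
    (hprev : ENNReal.ofReal s ≤ volume (S ∩ {x : Fin 2 → ℝ | t0 < x 0 ∧ x 0 < t})) :
    ENNReal.ofReal (s + (y + y') * (t' - t) / 2) ≤
      volume (S ∩ {x : Fin 2 → ℝ | t0 < x 0 ∧ x 0 < t'}) := by
  have htrap := trapezoid_le hS htt' hy hy' m m'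
  have hnn : 0 ≤ (y + y') * (t' - t) / 2 :=
    div_nonneg (mul_nonneg (add_nonneg hy hy') (sub_nonneg.mpr htt')) (by norm_num)
  rw [ENNReal.ofReal_add hs hnn]
  exact (add_le_add hprev htrap).trans (strip_add_le (halfCorner_measurable hS) h0t htt')

/-- A trapezoid is nonnegative. -/
private theorem chain_nonneg {t t' y y' : ℝ} (htt' : t ≤ t') (hy : 0 ≤ y) (hy' : 0 ≤ y') :
    0 ≤ (y + y') * (t' - t) / 2 :=
  div_nonneg (mul_nonneg (add_nonneg hy hy') (sub_nonneg.mpr htt')) (by norm_num)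

/-- From the part of `S` over an interval of abscissas to the whole of `S`, in real numbers. -/
private theorem chain_final {S : Set (Fin 2 → ℝ)} (hS : HalfCorner S) {t0 t s : ℝ}
    (hprev : ENNReal.ofReal s ≤ volume (S ∩ {x : Fin 2 → ℝ | t0 < x 0 ∧ x 0 < t})) :
    s ≤ vol S := by
  have h1 : ENNReal.ofReal s ≤ volume S := hprev.trans (measure_mono inter_subset_left)
  unfold vol
  exact (ENNReal.ofReal_le_iff_le_toReal (halfCorner_volume_ne_top hS)).mp h1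

/-- CHAIN3. -/
theorem chain3_le {S : Set (Fin 2 → ℝ)} (hS : HalfCorner S) {t0 t1 t2 y0 y1 y2 : ℝ}
    (h01 : t0 ≤ t1) (h12 : t1 ≤ t2) (hy0 : 0 ≤ y0) (hy1 : 0 ≤ y1) (hy2 : 0 ≤ y2)
    (m0 : ![t0, y0] ∈ S) (m1 : ![t1, y1] ∈ S) (m2 : ![t2, y2] ∈ S) :
    (y0 + y1) * (t1 - t0) / 2 + (y1 + y2) * (t2 - t1) / 2 ≤ vol S := by
  have s1 := trapezoid_le hS h01 hy0 hy1 m0 m1
  have s2 := chain_step hS h01 h12 (chain_nonneg h01 hy0 hy1) hy1 hy2 m1 m2 s1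
  exact chain_final hS s2

/-- CHAIN4. -/
theorem chain4_le {S : Set (Fin 2 → ℝ)} (hS : HalfCorner S) {t0 t1 t2 t3 y0 y1 y2 y3 : ℝ}
    (h01 : t0 ≤ t1) (h12 : t1 ≤ t2) (h23 : t2 ≤ t3)
    (hy0 : 0 ≤ y0) (hy1 : 0 ≤ y1) (hy2 : 0 ≤ y2) (hy3 : 0 ≤ y3)
    (m0 : ![t0, y0] ∈ S) (m1 : ![t1, y1] ∈ S) (m2 : ![t2, y2] ∈ S) (m3 : ![t3, y3] ∈ S) :
    (y0 + y1) * (t1 - t0) / 2 + (y1 + y2) * (t2 - t1) / 2 + (y2 + y3) * (t3 - t2) / 2
      ≤ vol S := by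
  have s1 := trapezoid_le hS h01 hy0 hy1 m0 m1
  have s2 := chain_step hS h01 h12 (chain_nonneg h01 hy0 hy1) hy1 hy2 m1 m2 s1
  have s3 := chain_step hS (h01.trans h12) h23
    (add_nonneg (chain_nonneg h01 hy0 hy1) (chain_nonneg h12 hy1 hy2)) hy2 hy3 m2 m3 s2
  exact chain_final hS s3

/-- CHAIN5. -/
theorem chain5_le {S : Set (Fin 2 → ℝ)} (hS : HalfCorner S)
    {t0 t1 t2 t3 t4 y0 y1 y2 y3 y4 : ℝ}
    (h01 : t0 ≤ t1) (h12 : t1 ≤ t2) (h23 : t2 ≤ t3) (h34 : t3 ≤ t4)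
    (hy0 : 0 ≤ y0) (hy1 : 0 ≤ y1) (hy2 : 0 ≤ y2) (hy3 : 0 ≤ y3) (hy4 : 0 ≤ y4)
    (m0 : ![t0, y0] ∈ S) (m1 : ![t1, y1] ∈ S) (m2 : ![t2, y2] ∈ S) (m3 : ![t3, y3] ∈ S)
    (m4 : ![t4, y4] ∈ S) :
    (y0 + y1) * (t1 - t0) / 2 + (y1 + y2) * (t2 - t1) / 2 + (y2 + y3) * (t3 - t2) / 2
      + (y3 + y4) * (t4 - t3) / 2 ≤ vol S := by
  have s1 := trapezoid_le hS h01 hy0 hy1 m0 m1
  have s2 := chain_step hS h01 h12 (chain_nonneg h01 hy0 hy1) hy1 hy2 m1 m2 s1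
  have s3 := chain_step hS (h01.trans h12) h23
    (add_nonneg (chain_nonneg h01 hy0 hy1) (chain_nonneg h12 hy1 hy2)) hy2 hy3 m2 m3 s2
  have s4 := chain_step hS ((h01.trans h12).trans h23) h34
    (add_nonneg (add_nonneg (chain_nonneg h01 hy0 hy1) (chain_nonneg h12 hy1 hy2))
      (chain_nonneg h23 hy2 hy3)) hy3 hy4 m3 m4 s3
  exact chain_final hS s4

end Vale.Agent.Lib.P248
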