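import Mathlib

/-!
# P248: from dimension seven on the bound with constant `3/2` exceeds the simplex value
-/

namespace Vale.Agent.Lib.P248

/-- The bound `3` for the `k`-th power of `1 + 1/k`, cleared of denominators. -/
private lemma num6_pow_le (k : ℕ) (hk : 1 ≤ k) : (k + 1) ^ k ≤ 3 * k ^ k := by
  have hk0 : (0:ℝ) < k := by exact_mod_cast hk
  have h1 : ((k:ℝ) + 1) ^ k ≤ 3 * (k:ℝ) ^ k := by
    have h2 : (1 / (k:ℝ) + 1) ^ k ≤ Real.exp 1 := by
      calc (1 / (k:ℝ) + 1) ^ k ≤ (Real.exp (1 / (k:ℝ))) ^ k :=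
            pow_le_pow_left₀ (by positivity) (Real.add_one_le_exp _) k
        _ = Real.exp 1 := by
            rw [← Real.exp_nat_mul]
            congr 1
            field_simp
    have h3 : Real.exp 1 < 3 := lt_trans Real.exp_one_lt_d9 (by norm_num)
    have h4 : ((k:ℝ) + 1) ^ k = (1 / (k:ℝ) + 1) ^ k * (k:ℝ) ^ k := by
      rw [← mul_pow]
      congr 1
      field_simp
      ring
    rw [h4]
    exact mul_le_mul_of_nonneg_right (h2.trans h3.le) (by positivity)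
  exact_mod_cast h1

/-- The inequality in natural numbers: `3 * 4^(n + 1) * n!` exceeds `2 * (n + 2)^(n + 2)` from
`n = 6` on. -/
private lemma num6_nat (n : ℕ) (hn : 6 ≤ n) :
    2 * (n + 2) ^ (n + 2) < 3 * (4 ^ (n + 1) * n.factorial) := by
  induction n, hn using Nat.le_induction with
  | base => norm_num [Nat.factorial]
  | succ n hn ih =>
    have h1 := num6_pow_le (n + 2) (by omega)
    have e1 : 2 * (n + 1 + 2) ^ (n + 1 + 2) = 2 * ((n + 3) * (n + 2 + 1) ^ (n + 2)) := by ring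
    have e2 : 3 * (4 ^ (n + 1 + 1) * (n + 1).factorial)
        = 4 * (n + 1) * (3 * (4 ^ (n + 1) * n.factorial)) := by
      rw [Nat.factorial_succ]; ring
    rw [e1, e2]
    calc 2 * ((n + 3) * (n + 2 + 1) ^ (n + 2))
        ≤ 2 * ((n + 3) * (3 * (n + 2) ^ (n + 2))) :=
          Nat.mul_le_mul_left _ (Nat.mul_le_mul_left _ h1)
      _ = (3 * (n + 3)) * (2 * (n + 2) ^ (n + 2)) := by ring
      _ ≤ (4 * (n + 1)) * (2 * (n + 2) ^ (n + 2)) := Nat.mul_le_mul_right _ (by omega)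
      _ < 4 * (n + 1) * (3 * (4 ^ (n + 1) * n.factorial)) :=
          mul_lt_mul_of_pos_left ih (by omega)

/-- From dimension seven on (`N = m + 2`, `5 ≤ m`) the bound with constant `3/2` exceeds the
volume product of the simplex. -/
theorem num_gap6 (m : ℕ) (hm : 5 ≤ m) :
    ((m:ℝ) + 3) ^ (m+3) / ((m+2).factorial : ℝ) ^ 2 <
      3 / 2 * (4:ℝ) ^ (m+2) / (((m:ℝ) + 2) * (m+2).factorial) := by
  have h := num6_nat (m + 1) (by omega)
  have hR : 2 * ((m:ℝ) + 3) ^ (m + 3) < 3 * ((4:ℝ) ^ (m + 2) * ((m+1).factorial : ℝ)) := by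
    have h' : ((2 * (m + 1 + 2) ^ (m + 1 + 2) : ℕ) : ℝ) <
        ((3 * (4 ^ (m + 1 + 1) * (m + 1).factorial) : ℕ) : ℝ) := by exact_mod_cast h
    push_cast at h'
    have e : ((m:ℝ) + 1 + 2) = (m:ℝ) + 3 := by ring
    rw [e] at h'
    exact h'
  have hf : ((m + 2).factorial : ℝ) = ((m:ℝ) + 2) * ((m+1).factorial : ℝ) := by
    rw [Nat.factorial_succ]; push_cast; ring
  have hfpos : (0:ℝ) < ((m+1).factorial : ℝ) := by exact_mod_cast Nat.factorial_pos (m+1)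
  have hm2 : (0:ℝ) < (m:ℝ) + 2 := by positivity
  have key : ((m:ℝ) + 3) ^ (m + 3) < 3 / 2 * (4:ℝ) ^ (m + 2) * ((m+1).factorial : ℝ) := by
    linarith
  have hpos : 0 < ((m:ℝ) + 2) * ((m:ℝ) + 2) * ((m+1).factorial : ℝ) := by positivity
  have h3 := mul_lt_mul_of_pos_right key hpos
  rw [hf, div_lt_div_iff₀ (by positivity) (by positivity)]
  calc ((m:ℝ) + 3) ^ (m + 3) * (((m:ℝ) + 2) * (((m:ℝ) + 2) * ((m+1).factorial : ℝ)))
      = ((m:ℝ) + 3) ^ (m + 3) * (((m:ℝ) + 2) * ((m:ℝ) + 2) * ((m+1).factorial : ℝ)) := by ring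
    _ < 3 / 2 * (4:ℝ) ^ (m + 2) * ((m+1).factorial : ℝ) *
          (((m:ℝ) + 2) * ((m:ℝ) + 2) * ((m+1).factorial : ℝ)) := h3
    _ = 3 / 2 * (4:ℝ) ^ (m + 2) * (((m:ℝ) + 2) * ((m+1).factorial : ℝ)) ^ 2 := by ring

end Vale.Agent.Lib.P248
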