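import Vale.Agent.Lib.P248.Plane.Step6
import Vale.Agent.Lib.P248.Plane.Num6
import Vale.Agent.Lib.P248.Axis
import Vale.Agent.Lib.P248.FlipAll

/-!
# P248: the volume product of bodies symmetric in all coordinates but one, with the planar
base case (constant `3/2`, dimension at least two)
-/

open MeasureTheory Set

namespace Vale.Agent.Lib.P248

/-- The volume product with respect to a point of the axis, dimension at least two. -/
theorem axis_bound6 {n : ℕ} (K : Set (Fin (n+2) → ℝ)) (hK : IsCompact K) (hc : Convex ℝ K)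
    (hflip : ∀ i : Fin (n+2), i ≠ 0 → ∀ x ∈ K, Function.update x i (-(x i)) ∈ K)
    (z : Fin (n+2) → ℝ) (hz0 : ∀ i, i ≠ 0 → z i = 0) (hz : z ∈ interior K) :
    3 / 2 * (4:ℝ) ^ (n+2) / (((n:ℝ) + 2) * (n+2).factorial) ≤ vol K * vol (polarAt K z) := by
  have hC : HalfCorner (cornerOf K z) := halfCorner_cornerOf hK hc hflip hz0 hz
  have h1 := halfCorner_product6 (cornerOf K z) hC
  have h2 := vol_cornerOf_le hK hflip hz0
  have h3 := orthant_vol_le (M := polarAt K z) (isClosed_polarAt K z).measurableSet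
    (volume_polarAt_ne_top hz) (polarAt_flip hflip hz0)
  rw [polarAt_pos_eq hflip hz0] at h3
  have hv1 : 0 ≤ vol (cornerOf K z) := ENNReal.toReal_nonneg
  have hv2 : 0 ≤ vol (dualCorner (cornerOf K z)) := ENNReal.toReal_nonneg
  have hp : (0:ℝ) < 2 ^ (n+1) := by positivity
  have e : 3 / 2 * (4:ℝ) ^ (n+2) / (((n:ℝ) + 2) * (n+2).factorial) =
      (2:ℝ) ^ (n+1) * (2:ℝ) ^ (n+1) * (6 / (((n:ℝ) + 2) * (n+2).factorial)) := by
    have h4 : (4:ℝ) ^ (n+1) = (2:ℝ) ^ (n+1) * (2:ℝ) ^ (n+1) := by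
      rw [← mul_pow]
      norm_num
    have h5 : (4:ℝ) ^ (n+2) = 4 * (4:ℝ) ^ (n+1) := by
      rw [pow_succ]
      ring
    rw [h5, h4]
    ring
  rw [e]
  calc (2:ℝ) ^ (n+1) * (2:ℝ) ^ (n+1) * (6 / (((n:ℝ) + 2) * (n+2).factorial))
      ≤ (2:ℝ) ^ (n+1) * (2:ℝ) ^ (n+1) *
          (vol (cornerOf K z) * vol (dualCorner (cornerOf K z))) :=
        mul_le_mul_of_nonneg_left h1 (mul_nonneg hp.le hp.le)
    _ = ((2:ℝ) ^ (n+1) * vol (cornerOf K z)) *
          ((2:ℝ) ^ (n+1) * vol (dualCorner (cornerOf K z))) := by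
        ring
    _ ≤ vol K * vol (polarAt K z) :=
        mul_le_mul h2 h3 (mul_nonneg hp.le hv2) (le_trans (mul_nonneg hp.le hv1) h2)

/-- **Bodies symmetric in all coordinates but one, dimension `N = n + 2 ≥ 2`.** For every
interior point `z`, `|K| |(K - z)°| ≥ (3/2) 4^N / (N N!)`, and for `N ≥ 7` this exceeds the
volume product of the simplex. -/
theorem axisReflections_bound6 {n : ℕ} (K : Set (Fin (n+2) → ℝ)) (hK : IsCompact K)
    (hc : Convex ℝ K)
    (hflip : ∀ i : Fin (n+2), i ≠ 0 → ∀ x ∈ K, Function.update x i (-(x i)) ∈ K)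
    (z : Fin (n+2) → ℝ) (hz : z ∈ interior K) :
    3 / 2 * (4:ℝ) ^ (n+2) / (((n:ℝ) + 2) * (n+2).factorial) ≤ vol K * vol (polarAt K z) ∧
      (5 ≤ n → ((n:ℝ) + 3) ^ (n+3) / ((n+2).factorial : ℝ) ^ 2 <
        vol K * vol (polarAt K z)) := by
  obtain ⟨z', hz0, hz', hle⟩ := polar_vol_axis_le hK hc hflip hz
  have h1 := axis_bound6 K hK hc hflip z' hz0 hz'
  have hv : 0 ≤ vol K := ENNReal.toReal_nonneg
  have h2 : 3 / 2 * (4:ℝ) ^ (n+2) / (((n:ℝ) + 2) * (n+2).factorial) ≤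
      vol K * vol (polarAt K z) :=
    le_trans h1 (mul_le_mul_of_nonneg_left hle hv)
  exact ⟨h2, fun hn => lt_of_lt_of_le (num_gap6 n hn) h2⟩

end Vale.Agent.Lib.P248
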