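import Vale.Agent.Lib.P248.Dual
import Vale.Agent.Lib.P248.Slice

/-!
# P248, planar base case: trapezoids inside a planar half corner

Coordinate `0` is the free coordinate (abscissa), coordinate `1` the symmetric one (height).
-/

open MeasureTheory Set

namespace Vale.Agent.Lib.P248

/-- The integral of the chord function over the base interval is the area of the trapezoid. -/
theorem trap_integral (a b ya yb : ℝ) (hab : a < b) :
    ∫ t in Ioo a b, ((fun t : ℝ => ya + (yb - ya) * ((t - a) / (b - a))) - (0 : ℝ → ℝ)) t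
      = (ya + yb) * (b - a) / 2 := by
  have hba : b - a ≠ 0 := sub_ne_zero.mpr hab.ne'
  have h1 : ∫ t in Ioo a b, ((fun t : ℝ => ya + (yb - ya) * ((t - a) / (b - a))) - (0 : ℝ → ℝ)) t
      = ∫ t in a..b, (ya + (yb - ya) * ((t - a) / (b - a))) := by
    rw [intervalIntegral.integral_of_le hab.le, ← integral_Ioc_eq_integral_Ioo]
    refine setIntegral_congr_fun measurableSet_Ioc (fun t _ => ?_)
    simp
  rw [h1]
  have h2 : ∀ t ∈ Set.uIcc a b, HasDerivAt
      (fun t : ℝ => ya * t + (yb - ya) * ((t - a) ^ 2 / (2 * (b - a))))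
      (ya + (yb - ya) * ((t - a) / (b - a))) t := by
    intro t _
    have hd : HasDerivAt (fun t : ℝ => (t - a) ^ 2 / (2 * (b - a)))
        ((t - a) / (b - a)) t := by
      have h3 : HasDerivAt (fun t : ℝ => (t - a) ^ 2) (2 * (t - a)) t := by
        have h4 : HasDerivAt (fun t : ℝ => (t - a) * (t - a)) (1 * (t - a) + (t - a) * 1) t :=
          ((hasDerivAt_id' t).sub_const a).mul ((hasDerivAt_id' t).sub_const a)
        have e1 : (fun t : ℝ => (t - a) ^ 2) = (fun t : ℝ => (t - a) * (t - a)) := by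
          funext s
          ring
        have e2 : 2 * (t - a) = 1 * (t - a) + (t - a) * 1 := by ring
        rw [e1, e2]
        exact h4
      have h5 := h3.div_const (2 * (b - a))
      have e : 2 * (t - a) / (2 * (b - a)) = (t - a) / (b - a) := by
        field_simp
      rw [e] at h5
      exact h5
    have h6 : HasDerivAt (fun t : ℝ => ya * t + (yb - ya) * ((t - a) ^ 2 / (2 * (b - a))))
        (ya * 1 + (yb - ya) * ((t - a) / (b - a))) t :=
      ((hasDerivAt_id' t).const_mul ya).add (hd.const_mul (yb - ya))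
    rw [mul_one] at h6
    exact h6
  have hcont : Continuous (fun t : ℝ => ya + (yb - ya) * ((t - a) / (b - a))) := by fun_prop
  rw [intervalIntegral.integral_eq_sub_of_hasDerivAt h2 (hcont.intervalIntegrable a b)]
  field_simp
  ring

/-- TRAPEZOID. If the planar half corner `S` contains the points `(a, ya)` and `(b, yb)`, then
the part of `S` over the open interval `(a, b)` of abscissas has area at least that of the
trapezoid under the chord. -/
theorem trapezoid_le {S : Set (Fin 2 → ℝ)} (hS : HalfCorner S) {a b ya yb : ℝ} (hab : a ≤ b)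
    (hya : 0 ≤ ya) (hyb : 0 ≤ yb) (ha : ![a, ya] ∈ S) (hb : ![b, yb] ∈ S) :
    ENNReal.ofReal ((ya + yb) * (b - a) / 2) ≤
      volume (S ∩ {x : Fin 2 → ℝ | a < x 0 ∧ x 0 < b}) := by
  rcases eq_or_lt_of_le hab with heq | hlt
  · subst heq
    have e : (ya + yb) * (a - a) / 2 = 0 := by ring
    rw [e, ENNReal.ofReal_zero]
    exact zero_le
  · have hba : 0 < b - a := sub_pos.mpr hlt
    have hcm : Measurable (fun t : ℝ => ya + (yb - ya) * ((t - a) / (b - a))) := by fun_prop
    have hcc : Continuous (fun t : ℝ => ya + (yb - ya) * ((t - a) / (b - a))) := by fun_prop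
    have hmeas : MeasurableSet (regionBetween (0 : ℝ → ℝ)
        (fun t : ℝ => ya + (yb - ya) * ((t - a) / (b - a))) (Ioo a b)) :=
      measurableSet_regionBetween measurable_zero hcm measurableSet_Ioo
    have hcnn : ∀ t ∈ Ioo a b, (0 : ℝ → ℝ) t ≤ ya + (yb - ya) * ((t - a) / (b - a)) := by
      intro t ht
      have hl0 : 0 ≤ (t - a) / (b - a) := div_nonneg (sub_nonneg.mpr ht.1.le) hba.le
      have hl1 : (t - a) / (b - a) ≤ 1 := by
        rw [div_le_one hba]
        linarith [ht.2]
      have e : ya + (yb - ya) * ((t - a) / (b - a))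
          = (1 - (t - a) / (b - a)) * ya + (t - a) / (b - a) * yb := by ring
      show (0:ℝ) ≤ ya + (yb - ya) * ((t - a) / (b - a))
      rw [e]
      exact add_nonneg (mul_nonneg (sub_nonneg.mpr hl1) hya) (mul_nonneg hl0 hyb)
    have hvol : (volume : Measure (ℝ × ℝ)) (regionBetween (0 : ℝ → ℝ)
        (fun t : ℝ => ya + (yb - ya) * ((t - a) / (b - a))) (Ioo a b))
        = ENNReal.ofReal ((ya + yb) * (b - a) / 2) := by
      rw [← trap_integral a b ya yb hlt]
      exact volume_regionBetween_eq_integral (integrableOn_zero)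
        ((hcc.integrableOn_Icc (a := a) (b := b)).mono_set Ioo_subset_Icc_self)
        measurableSet_Ioo hcnn
    have hpre : volume (MeasurableEquiv.finTwoArrow ⁻¹' (regionBetween (0 : ℝ → ℝ)
        (fun t : ℝ => ya + (yb - ya) * ((t - a) / (b - a))) (Ioo a b)))
        = ENNReal.ofReal ((ya + yb) * (b - a) / 2) := by
      rw [(volume_preserving_finTwoArrow ℝ).measure_preimage hmeas.nullMeasurableSet]
      exact hvol
    rw [← hpre]
    refine measure_mono ?_
    intro x hx
    have hx' : x 0 ∈ Ioo a b ∧ x 1 ∈ Ioo (0:ℝ) (ya + (yb - ya) * ((x 0 - a) / (b - a))) := hx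
    obtain ⟨⟨h0a, h0b⟩, h1a, h1b⟩ := hx'
    refine ⟨?_, h0a, h0b⟩
    have hl0 : 0 ≤ (x 0 - a) / (b - a) := div_nonneg (sub_nonneg.mpr h0a.le) hba.le
    have hl1 : (x 0 - a) / (b - a) ≤ 1 := by
      rw [div_le_one hba]
      linarith
    have hw : (1 - (x 0 - a) / (b - a)) • ![a, ya] + ((x 0 - a) / (b - a)) • ![b, yb] ∈ S :=
      hS.convex ha hb (sub_nonneg.mpr hl1) hl0 (by ring)
    refine hS.down _ hw x ?_ ?_
    · show x 0 = (1 - (x 0 - a) / (b - a)) * a + (x 0 - a) / (b - a) * b
      field_simp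
      ring
    · intro i hi
      have hi1 : i = 1 := by
        fin_cases i
        · exact absurd rfl hi
        · rfl
      subst hi1
      refine ⟨h1a.le, ?_⟩
      show x 1 ≤ (1 - (x 0 - a) / (b - a)) * ya + (x 0 - a) / (b - a) * yb
      have e : ya + (yb - ya) * ((x 0 - a) / (b - a))
          = (1 - (x 0 - a) / (b - a)) * ya + (x 0 - a) / (b - a) * yb := by ring
      rw [← e]
      exact h1b.le

/-- STRIP-ADD. The parts of a measurable set over two adjacent open intervals of abscissas are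
disjoint parts of its part over the union. -/
theorem strip_add_le {S : Set (Fin 2 → ℝ)} (hS : MeasurableSet S) {a b c : ℝ}
    (hab : a ≤ b) (hbc : b ≤ c) :
    volume (S ∩ {x : Fin 2 → ℝ | a < x 0 ∧ x 0 < b}) +
        volume (S ∩ {x : Fin 2 → ℝ | b < x 0 ∧ x 0 < c}) ≤
      volume (S ∩ {x : Fin 2 → ℝ | a < x 0 ∧ x 0 < c}) := by
  have hm : MeasurableSet (S ∩ {x : Fin 2 → ℝ | b < x 0 ∧ x 0 < c}) := by
    refine hS.inter ?_
    exact (measurableSet_lt measurable_const (measurable_pi_apply 0)).inter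
      (measurableSet_lt (measurable_pi_apply 0) measurable_const)
  have hd : Disjoint (S ∩ {x : Fin 2 → ℝ | a < x 0 ∧ x 0 < b})
      (S ∩ {x : Fin 2 → ℝ | b < x 0 ∧ x 0 < c}) := by
    rw [Set.disjoint_left]
    rintro x ⟨_, _, h1⟩ ⟨_, h2, _⟩
    exact lt_irrefl _ (lt_trans h1 h2)
  rw [← measure_union hd hm]
  refine measure_mono ?_
  rintro x (⟨hx, h1, h2⟩ | ⟨hx, h1, h2⟩)
  · exact ⟨hx, h1, lt_of_lt_of_le h2 hbc⟩
  · exact ⟨hx, lt_of_le_of_lt hab h1, h2⟩

end Vale.Agent.Lib.P248
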